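import Vale.Agent.P038.H139.Basic

/-!
# P038 (H924): comparison of two minimum cuts, combinatorial part
-/

namespace Vale.Agent.P038.H924

open Finset Vale.Agent.P038.H139

variable {V : Type*} [Fintype V]

/-- Closed adjacency. -/
def nb (D : OGraph V) (a b : V) : Prop := a = b ∨ D.arc a b

theorem mem_cl1 {D : OGraph V} {X : Finset V} {y : V} : y ∈ cl D X ↔ ∃ a ∈ X, nb D a y := by
  rw [mem_cl]
  constructor
  · rintro (h | ⟨a, ha, hay⟩)
    · exact ⟨y, h, Or.inl rfl⟩
    · exact ⟨a, ha, Or.inr hay⟩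
  · rintro ⟨a, ha, rfl | hay⟩
    · exact Or.inl ha
    · exact Or.inr ⟨a, ha, hay⟩

theorem cl_mono1 {D : OGraph V} {A B : Finset V} (h : A ⊆ B) : cl D A ⊆ cl D B := by
  intro y hy
  obtain ⟨a, ha, hay⟩ := mem_cl1.1 hy
  exact mem_cl1.2 ⟨a, h ha, hay⟩

theorem sub_cl1 (D : OGraph V) (A : Finset V) : A ⊆ cl D A :=
  fun y hy => mem_cl1.2 ⟨y, hy, Or.inl rfl⟩

open Classical in
/-- The largest family dual to `Q`. -/
noncomputable def hat (Q : V → Finset V) (a : V) : Finset V :=
  univ.filter fun b => b = a ∨ a ∉ Q b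

theorem mem_hat {Q : V → Finset V} {a b : V} : b ∈ hat Q a ↔ b = a ∨ a ∉ Q b := by
  classical
  simp [hat]

open Classical in
/-- Column erosion. -/
noncomputable def cap (D : OGraph V) (P : V → Finset V) (a : V) : Finset V :=
  univ.filter fun x => ∀ u, nb D u a → x ∈ P u

theorem mem_cap {D : OGraph V} {P : V → Finset V} {a x : V} :
    x ∈ cap D P a ↔ ∀ u, nb D u a → x ∈ P u := by
  classical
  simp [cap]

/-- The cost `w(N[S]) - w(S)`. -/
noncomputable def cc (D : OGraph V) (w : V → ℝ) (S : Finset V) : ℝ := W w (cl D S) - W w S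

/-- Mass of a relation. -/
noncomputable def MM (w : V → ℝ) (R : V → Finset V) : ℝ := ∑ a, w a * W w (R a)

/-- The closed neighbourhoods of a family. -/
noncomputable def clF (D : OGraph V) (P : V → Finset V) (a : V) : Finset V := cl D (P a)

/-- Cost of a pair of families. -/
noncomputable def cost (D : OGraph V) (w : V → ℝ) (P Q : V → Finset V) : ℝ :=
  ∑ a, w a * cc D w (P a) + ∑ b, w b * cc D w (Q b)

theorem cost_eq (D : OGraph V) (w : V → ℝ) (P Q : V → Finset V) :
    cost D w P Q = MM w (clF D P) - MM w P + (MM w (clF D Q) - MM w Q) := by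
  unfold cost MM cc clF
  rw [← Finset.sum_sub_distrib, ← Finset.sum_sub_distrib]
  congr 1 <;> exact Finset.sum_congr rfl fun a _ => by ring

/-- Feasible pairs of the second problem. -/
structure F2 (D : OGraph V) (P Q : V → Finset V) : Prop where
  hP : ∀ a b, nb D a b → b ∈ P a
  hQ : ∀ a b, nb D a b → b ∈ Q a
  comp : ∀ a b, a ≠ b → b ∈ P a → a ∉ Q b

theorem F2.symm {D : OGraph V} {P Q : V → Finset V} (h : F2 D P Q) : F2 D Q P :=
  ⟨h.hQ, h.hP, fun a b hab hb ha => h.comp b a hab.symm ha hb⟩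

theorem F2.sub_hat {D : OGraph V} {P Q : V → Finset V} (h : F2 D P Q) (a : V) :
    P a ⊆ hat Q a := by
  intro b hb
  rw [mem_hat]
  by_cases hab : b = a
  · exact Or.inl hab
  · exact Or.inr (h.comp a b (fun h' => hab h'.symm) hb)

theorem F2.hat_left {D : OGraph V} {P Q : V → Finset V} (h : F2 D P Q) : F2 D (hat Q) Q := by
  refine ⟨fun a b hab => h.sub_hat a (h.hP a b hab), h.hQ, fun a b hab hb => ?_⟩
  rcases mem_hat.1 hb with h1 | h1
  · exact absurd h1.symm hab
  · exact h1

theorem hat_hat {Q : V → Finset V} (h : ∀ x, x ∈ Q x) : hat (hat Q) = Q := by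
  funext x
  ext b
  rw [mem_hat, mem_hat]
  constructor
  · rintro (rfl | h1)
    · exact h _
    · by_contra h2
      exact h1 (Or.inr h2)
  · intro hb
    by_cases hbx : b = x
    · exact Or.inl hbx
    · refine Or.inr ?_
      rintro (h1 | h1)
      · exact hbx h1.symm
      · exact h1 hb

/-- The constant `μ(V × V) + μ(Id)`. -/
noncomputable def KK (w : V → ℝ) : ℝ := (∑ a, w a) * (∑ a, w a) + ∑ a, w a * w a

theorem W_ite [DecidableEq V] (w : V → ℝ) (S : Finset V) : W w S = ∑ x, if x ∈ S then w x else 0 := by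
  unfold W
  rw [Finset.sum_ite_mem, Finset.univ_inter]

theorem dual_mass (w : V → ℝ) (R C : V → Finset V) (hR : ∀ a, a ∈ R a) (hC : ∀ a, a ∈ C a)
    (h : ∀ a x, a ≠ x → (x ∈ R a ↔ a ∉ C x)) : MM w R + MM w C = KK w := by
  classical
  have e1 : MM w R = ∑ a, ∑ x, w a * w x * (if x ∈ R a then 1 else 0) := by
    unfold MM
    refine Finset.sum_congr rfl fun a _ => ?_
    rw [W_ite, Finset.mul_sum]
    refine Finset.sum_congr rfl fun x _ => ?_
    split_ifs <;> ring
  have e2 : MM w C = ∑ a, ∑ x, w a * w x * (if a ∈ C x then 1 else 0) := by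
    rw [Finset.sum_comm]
    unfold MM
    refine Finset.sum_congr rfl fun a _ => ?_
    rw [W_ite, Finset.mul_sum]
    refine Finset.sum_congr rfl fun x _ => ?_
    split_ifs <;> ring
  have e3 : KK w = ∑ a, ∑ x, w a * w x * (1 + if a = x then 1 else 0) := by
    unfold KK
    rw [Finset.sum_mul_sum, ← Finset.sum_add_distrib]
    refine Finset.sum_congr rfl fun a _ => ?_
    simp only [mul_add, mul_one, Finset.sum_add_distrib]
    congr 1
    simp
  rw [e1, e2, e3, ← Finset.sum_add_distrib]
  refine Finset.sum_congr rfl fun a _ => ?_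
  rw [← Finset.sum_add_distrib]
  refine Finset.sum_congr rfl fun x _ => ?_
  by_cases hax : a = x
  · subst hax
    simp only [hR a, hC a, if_true]
    ring
  · have h1 := h a x hax
    by_cases h2 : x ∈ R a
    · have h3 := h1.1 h2
      simp only [h2, h3, hax, if_true, if_false]
      ring
    · have h3 : a ∈ C x := by
        by_contra h4
        exact h2 (h1.2 h4)
      simp only [h2, h3, hax, if_true, if_false]
      ring

theorem F2.cap_iff {D : OGraph V} {P Q : V → Finset V} (h : F2 D P Q) (a x : V) (hax : a ≠ x) :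
    x ∈ cap D P a ↔ a ∉ clF D (hat P) x := by
  unfold clF
  rw [mem_cap, mem_cl1]
  constructor
  · rintro h1 ⟨u, hu, hua⟩
    rcases mem_hat.1 hu with h2 | h2
    · subst h2
      exact h.comp a u hax (h1 a (Or.inl rfl)) (h.hQ u a hua)
    · exact h2 (h1 u hua)
  · intro h1 u hua
    by_contra h2
    exact h1 ⟨u, mem_hat.2 (Or.inr h2), hua⟩

theorem F2.self_cap {D : OGraph V} {P Q : V → Finset V} (h : F2 D P Q) (a : V) :
    a ∈ cap D P a := mem_cap.2 fun u hu => h.hP u a hu

theorem self_hat (P : V → Finset V) (a : V) : a ∈ hat P a := mem_hat.2 (Or.inl rfl)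

theorem F2.mass_cap {D : OGraph V} {P Q : V → Finset V} (h : F2 D P Q) (w : V → ℝ) :
    MM w (cap D P) + MM w (clF D (hat P)) = KK w :=
  dual_mass w _ _ (fun a => h.self_cap a) (fun a => sub_cl1 D _ (self_hat P a))
    (fun a x hax => h.cap_iff a x hax)

theorem F2.mass_hat {D : OGraph V} {P Q : V → Finset V} (h : F2 D P Q) (w : V → ℝ) :
    MM w (hat Q) + MM w Q = KK w :=
  dual_mass w _ _ (fun a => self_hat Q a) (fun a => h.hQ a a (Or.inl rfl))
    (fun a x hax => by
      rw [mem_hat]
      constructor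
      · rintro (h1 | h1)
        · exact absurd h1.symm hax
        · exact h1
      · exact Or.inr)

/-- `(cap P, cap Q)` is compatible. -/
theorem F2.cap_comp {D : OGraph V} {P Q : V → Finset V} (h : F2 D P Q) (a b : V) (hab : a ≠ b)
    (hb : b ∈ cl D (cap D P a)) : a ∉ cl D (cap D Q b) := by
  intro ha
  obtain ⟨x, hx, hxb⟩ := mem_cl1.1 hb
  obtain ⟨y, hy, hya⟩ := mem_cl1.1 ha
  rw [mem_cap] at hx hy
  have h1 : x ∈ P y := hx y hya
  have h2 : y ∈ Q x := hy x hxb
  by_cases hxy : y = x
  · subst hxy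
    have h3 : y ∈ P a := hx a (Or.inl rfl)
    have h4 : a = y := by
      by_contra h5
      exact h.comp a y h5 h3 (h.hQ y a hya)
    have h5 : y ∈ Q b := hy b (Or.inl rfl)
    have h6 : y = b := by
      by_contra h7
      exact h.comp y b h7 (h.hP y b hxb) h5
    exact hab (h4.trans h6)
  · exact h.comp y x hxy h1 h2

theorem F2.F2_cl_cap {D : OGraph V} {P Q : V → Finset V} (h : F2 D P Q) :
    F2 D (clF D (cap D P)) (clF D (cap D Q)) :=
  ⟨fun a b hab => mem_cl1.2 ⟨a, h.self_cap a, hab⟩,
    fun a b hab => mem_cl1.2 ⟨a, h.symm.self_cap a, hab⟩,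
    fun a b hab hb => h.cap_comp a b hab hb⟩

/-- Submodularity of the cost. -/
theorem cc_submod [DecidableEq V] {D : OGraph V} {w : V → ℝ} (hw : ∀ v, 0 ≤ w v)
    (A B : Finset V) : cc D w (A ∪ B) + cc D w (A ∩ B) ≤ cc D w A + cc D w B := by
  have h1 : W w (A ∪ B) + W w (A ∩ B) = W w A + W w B := Finset.sum_union_inter
  have h2 : cl D (A ∪ B) = cl D A ∪ cl D B := by
    ext y
    rw [Finset.mem_union, mem_cl1, mem_cl1, mem_cl1]
    constructor
    · rintro ⟨a, ha, hay⟩
      rcases Finset.mem_union.1 ha with ha | ha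
      · exact Or.inl ⟨a, ha, hay⟩
      · exact Or.inr ⟨a, ha, hay⟩
    · rintro (⟨a, ha, hay⟩ | ⟨a, ha, hay⟩)
      · exact ⟨a, Finset.mem_union_left _ ha, hay⟩
      · exact ⟨a, Finset.mem_union_right _ ha, hay⟩
  have h3 : W w (cl D A ∪ cl D B) + W w (cl D A ∩ cl D B) = W w (cl D A) + W w (cl D B) :=
    Finset.sum_union_inter
  have h4 : W w (cl D (A ∩ B)) ≤ W w (cl D A ∩ cl D B) :=
    W_mono hw (Finset.subset_inter (cl_mono1 Finset.inter_subset_left)
      (cl_mono1 Finset.inter_subset_right))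
  unfold cc
  rw [h2]
  linarith

/-- Optimal pair of the second problem. -/
structure O2 (D : OGraph V) (w : V → ℝ) (P Q : V → Finset V) : Prop where
  feas : F2 D P Q
  opt : ∀ P' Q', F2 D P' Q' → cost D w P Q ≤ cost D w P' Q'

theorem cost_symm (D : OGraph V) (w : V → ℝ) (P Q : V → Finset V) :
    cost D w P Q = cost D w Q P := by
  unfold cost
  ring

theorem O2.symm {D : OGraph V} {w : V → ℝ} {P Q : V → Finset V} (h : O2 D w P Q) :
    O2 D w Q P :=
  ⟨h.feas.symm, fun P' Q' h' => by
    rw [cost_symm D w Q P, cost_symm D w P' Q']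
    exact h.opt Q' P' h'.symm⟩

theorem O2.row {D : OGraph V} {w : V → ℝ} (hw : ∀ v, 0 < w v) {P Q : V → Finset V}
    (h : O2 D w P Q) (a : V) (S : Finset V) (h1 : P a ⊆ S) (h2 : S ⊆ hat Q a) :
    cc D w (P a) ≤ cc D w S := by
  classical
  have h3 := h.opt (Function.update P a S) Q ⟨?_, h.feas.hQ, ?_⟩
  · unfold cost at h3
    have h4 : ∑ b, w b * cc D w (Function.update P a S b) =
        ∑ b, w b * cc D w (P b) + w a * (cc D w S - cc D w (P a)) := by
      rw [← Finset.add_sum_erase univ (fun b => w b * cc D w (Function.update P a S b))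
          (Finset.mem_univ a),
        ← Finset.add_sum_erase univ (fun b => w b * cc D w (P b)) (Finset.mem_univ a)]
      rw [Function.update_self]
      have h5 : ∑ b ∈ univ.erase a, w b * cc D w (Function.update P a S b) =
          ∑ b ∈ univ.erase a, w b * cc D w (P b) := by
        refine Finset.sum_congr rfl fun b hb => ?_
        rw [Function.update_of_ne (Finset.ne_of_mem_erase hb)]
      rw [h5]
      ring
    rw [h4] at h3
    have h5 : 0 ≤ w a * (cc D w S - cc D w (P a)) := by linarith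
    have h6 := nonneg_of_mul_nonneg_right h5 (hw a)
    linarith
  · intro b c hbc
    by_cases hba : b = a
    · subst hba
      rw [Function.update_self]
      exact h1 (h.feas.hP b c hbc)
    · rw [Function.update_of_ne hba]
      exact h.feas.hP b c hbc
  · intro b c hbc hc
    by_cases hba : b = a
    · subst hba
      rw [Function.update_self] at hc
      rcases mem_hat.1 (h2 hc) with h4 | h4
      · exact absurd h4.symm hbc
      · exact h4
    · rw [Function.update_of_ne hba] at hc
      exact h.feas.comp b c hbc hc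

/-- Optimality passes to the eroded families. -/
theorem O2.cap_row {D : OGraph V} {w : V → ℝ} (hw : ∀ v, 0 < w v) {P Q : V → Finset V}
    (h : O2 D w P Q) (a : V) (S : Finset V) (h1 : cap D P a ⊆ S)
    (h2 : S ⊆ cap D (hat Q) a) : cc D w (cap D P a) ≤ cc D w S := by
  classical
  have key : ∀ A : Finset V, (∀ u ∈ A, nb D u a) →
      cc D w (S.filter fun x => ∀ u ∈ A, x ∈ P u) ≤ cc D w S := by
    intro A
    induction A using Finset.induction_on with
    | empty =>
      intro _
      simp
    | insert u A hu ih =>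
      intro hA
      have h3 := ih fun u' hu' => hA u' (Finset.mem_insert_of_mem hu')
      set S' := S.filter fun x => ∀ u ∈ A, x ∈ P u with hS'
      have h4 : (S.filter fun x => ∀ u' ∈ insert u A, x ∈ P u') = S' ∩ P u := by
        ext x
        simp only [hS', Finset.mem_filter, Finset.mem_inter, Finset.mem_insert,
          forall_eq_or_imp]
        tauto
      rw [h4]
      have hua : nb D u a := hA u (Finset.mem_insert_self u A)
      have h5 := cc_submod (D := D) (w := w) (fun v => (hw v).le) S' (P u)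
      have h6 := h.row hw u (S' ∪ P u) Finset.subset_union_right (by
        refine Finset.union_subset ?_ (h.feas.sub_hat u)
        intro x hx
        exact mem_cap.1 (h2 (Finset.mem_filter.1 hx).1) u hua)
      linarith
  have h3 := key (univ.filter fun u => nb D u a) (fun u hu => (Finset.mem_filter.1 hu).2)
  have h4 : (S.filter fun x => ∀ u ∈ univ.filter fun u => nb D u a, x ∈ P u) = cap D P a := by
    ext x
    simp only [Finset.mem_filter, Finset.mem_univ, true_and, mem_cap]
    constructor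
    · exact fun h5 => h5.2
    · exact fun h5 => ⟨h1 (mem_cap.2 h5), h5⟩
  rw [h4] at h3
  exact h3

open Classical in
/-- Hall's condition from optimality. -/
theorem hall_of {D : OGraph V} {w : V → ℝ} (hw : ∀ v, 0 ≤ w v) {X Z : Finset V}
    (hXZ : X ⊆ Z) (h : ∀ S, X ⊆ S → S ⊆ Z → cc D w X ≤ cc D w S) (T : Finset V)
    (hT : T ⊆ Z \ X) :
    W w T ≤ W w ((cl D Z \ cl D X).filter fun b => ∃ a ∈ T, nb D a b) := by
  have h1 := h (X ∪ T) Finset.subset_union_left
    (Finset.union_subset hXZ (hT.trans Finset.sdiff_subset))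
  have h2 : W w (X ∪ T) = W w X + W w T := W_union (by
    rw [Finset.disjoint_left]
    intro x hx hxT
    exact (Finset.mem_sdiff.1 (hT hxT)).2 hx)
  have h3 : cl D (X ∪ T) ⊆ cl D X ∪ ((cl D Z \ cl D X).filter fun b => ∃ a ∈ T, nb D a b) := by
    intro y hy
    obtain ⟨a, ha, hay⟩ := mem_cl1.1 hy
    rw [Finset.mem_union]
    by_cases hyX : y ∈ cl D X
    · exact Or.inl hyX
    · right
      rcases Finset.mem_union.1 ha with ha | ha
      · exact absurd (mem_cl1.2 ⟨a, ha, hay⟩) hyX
      · rw [Finset.mem_filter, Finset.mem_sdiff]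
        exact ⟨⟨mem_cl1.2 ⟨a, (Finset.mem_sdiff.1 (hT ha)).1, hay⟩, hyX⟩, a, ha, hay⟩
  have h4 := W_mono hw h3
  have h5 : W w (cl D X ∪ ((cl D Z \ cl D X).filter fun b => ∃ a ∈ T, nb D a b)) =
      W w (cl D X) + W w ((cl D Z \ cl D X).filter fun b => ∃ a ∈ T, nb D a b) := W_union (by
    rw [Finset.disjoint_left]
    intro x hx hxT
    exact (Finset.mem_sdiff.1 (Finset.mem_filter.1 hxT).1).2 hx)
  unfold cc at h1
  linarith

end Vale.Agent.P038.H924
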