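import Vale.Agent.P038.H924.Core

/-!
# P038 (H924): the strict inequality (G) for arc-minimal counterexamples (helper294's argument)

The row lemmas are copied from helper71's `Plan.lean`.
-/

namespace Vale.Agent.P038.H924

open Finset Vale.Agent.P038.H139

variable {V : Type*} [Fintype V]

/-- Delete all arcs from `X` to `Z`. -/
def dl (D : OGraph V) (X Z : Finset V) : OGraph V where
  arc a b := D.arc a b ∧ ¬ (a ∈ X ∧ b ∈ Z)
  loopless v h := D.loopless v h.1
  asymm _ _ h h' := D.asymm _ _ h.1 h'.1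

/-- `L(X) = N⁺(X) \ X`. -/
noncomputable def Lx [DecidableEq V] (D : OGraph V) (X : Finset V) : Finset V := outS D X \ X

/-- `d(T) = w(N⁺[T] \ X) - 2 w(T)`. -/
noncomputable def dd [DecidableEq V] (D : OGraph V) (w : V → ℝ) (X T : Finset V) : ℝ :=
  W w (cl D T \ X) - 2 * W w T

theorem cl_union1 [DecidableEq V] {D : OGraph V} {S T : Finset V} :
    cl D (S ∪ T) = cl D S ∪ cl D T := by
  ext y
  rw [Finset.mem_union, mem_cl1, mem_cl1, mem_cl1]
  constructor
  · rintro ⟨a, ha, hay⟩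
    rcases Finset.mem_union.1 ha with ha | ha
    · exact Or.inl ⟨a, ha, hay⟩
    · exact Or.inr ⟨a, ha, hay⟩
  · rintro (⟨a, ha, hay⟩ | ⟨a, ha, hay⟩)
    · exact ⟨a, Finset.mem_union_left _ ha, hay⟩
    · exact ⟨a, Finset.mem_union_right _ ha, hay⟩

theorem del_row_out {D : OGraph V} {w : V → ℝ} (hw : ∀ v, 0 ≤ w v)
    (X Z : Finset V) {y : V} (hy : y ∉ X) : Fw 1 D w y ≤ Fw 1 (dl D X Z) w y := by
  have h1 : N1 (dl D X Z) y = N1 D y := by
    ext z
    rw [mem_N1, mem_N1]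
    exact ⟨fun h3 => h3.1, fun h3 => ⟨h3, fun h4 => hy h4.1⟩⟩
  have h2 : N2 (dl D X Z) y ⊆ N2 D y := by
    intro z hz
    rw [mem_N2] at hz ⊢
    obtain ⟨hzv, hnz, c, hvc, hcz⟩ := hz
    exact ⟨hzv, fun h3 => hnz ⟨h3, fun h4 => hy h4.1⟩, c, hvc.1, hcz.1⟩
  have h3 := W_mono hw h2
  unfold Fw
  rw [h1]
  linarith

theorem del_row_in [DecidableEq V] {D : OGraph V} {w : V → ℝ} (hw : ∀ v, 0 ≤ w v)
    (X T : Finset V) {y : V} (hy : y ∈ X) :
    Fw 1 D w y + (dd D w X (T ∪ (N1 D y ∩ (Lx D X \ T))) - dd D w X T) ≤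
      Fw 1 (dl D X (Lx D X \ T)) w y := by
  set L := Lx D X with hL
  have hL' : L = outS D X \ X := hL
  set Z := L \ T with hZ
  set D' := dl D X Z with hD'
  set Dy := N1 D y ∩ Z with hDy
  set Ey := cl D Dy \ (cl D T ∪ X) with hEy
  have hN1 : N1 D' y = N1 D y \ Dy := by
    ext z
    rw [mem_N1, Finset.mem_sdiff, hDy, Finset.mem_inter, mem_N1]
    constructor
    · rintro ⟨h1, h2⟩
      exact ⟨h1, fun h3 => h2 ⟨hy, h3.2⟩⟩
    · rintro ⟨h1, h2⟩
      exact ⟨h1, fun h3 => h2 ⟨h1, h3.2⟩⟩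
  have hEsub : Ey ⊆ N2 D y ∪ Dy := by
    intro z hz
    obtain ⟨hz1, hz2⟩ := Finset.mem_sdiff.1 hz
    have hzX : z ∉ X := fun h3 => hz2 (Finset.mem_union_right _ h3)
    have hzT : z ∉ cl D T := fun h3 => hz2 (Finset.mem_union_left _ h3)
    rw [mem_cl] at hz1
    rcases hz1 with hz1 | ⟨c, hc, hcz⟩
    · exact Finset.mem_union_right _ hz1
    · have hyc : D.arc y c := mem_N1.1 (Finset.mem_inter.1 hc).1
      by_cases hyz : D.arc y z
      · refine Finset.mem_union_right _ (Finset.mem_inter.2 ⟨mem_N1.2 hyz, ?_⟩)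
        refine Finset.mem_sdiff.2 ⟨?_, ?_⟩
        · rw [hL']
          exact Finset.mem_sdiff.2 ⟨mem_outS.2 ⟨y, hy, hyz⟩, hzX⟩
        · intro h3
          exact hzT (mem_cl.2 (Or.inl h3))
      · refine Finset.mem_union_left _ (mem_N2.2 ⟨?_, hyz, c, hyc, hcz⟩)
        rintro rfl
        exact hzX hy
  have hN2 : N2 D' y ⊆ (N2 D y ∪ Dy) \ Ey := by
    intro z hz
    rw [mem_N2] at hz
    obtain ⟨hzy, hnz, c, hyc, hcz⟩ := hz
    refine Finset.mem_sdiff.2 ⟨?_, ?_⟩
    · by_cases hyz : D.arc y z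
      · refine Finset.mem_union_right _ (Finset.mem_inter.2 ⟨mem_N1.2 hyz, ?_⟩)
        by_contra hzZ
        exact hnz ⟨hyz, fun h3 => hzZ h3.2⟩
      · exact Finset.mem_union_left _ (mem_N2.2 ⟨hzy, hyz, c, hyc.1, hcz.1⟩)
    · intro hzE
      obtain ⟨_, hz2⟩ := Finset.mem_sdiff.1 hzE
      have hzX : z ∉ X := fun h3 => hz2 (Finset.mem_union_right _ h3)
      have hzT : z ∉ cl D T := fun h3 => hz2 (Finset.mem_union_left _ h3)
      by_cases hcX : c ∈ X
      · have hzL : z ∈ L := by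
          rw [hL']
          exact Finset.mem_sdiff.2 ⟨mem_outS.2 ⟨c, hcX, hcz.1⟩, hzX⟩
        have hzZ : z ∈ Z := Finset.mem_sdiff.2 ⟨hzL, fun h3 => hzT (mem_cl.2 (Or.inl h3))⟩
        exact hcz.2 ⟨hcX, hzZ⟩
      · have hcL : c ∈ L := by
          rw [hL']
          exact Finset.mem_sdiff.2 ⟨mem_outS.2 ⟨y, hy, hyc.1⟩, hcX⟩
        have hcT : c ∈ T := by
          by_contra hcT
          exact hyc.2 ⟨hy, Finset.mem_sdiff.2 ⟨hcL, hcT⟩⟩
        exact hzT (mem_cl.2 (Or.inr ⟨c, hcT, hcz.1⟩))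
  have h1 := W_mono hw hN2
  rw [W_sdiff hEsub, W_union (by
    rw [Finset.disjoint_left]
    intro z hz hz'
    exact (mem_N2.1 hz).2.1 (mem_N1.1 (Finset.mem_inter.1 hz').1))] at h1
  have h2 : W w (N1 D' y) = W w (N1 D y) - W w Dy := by
    rw [hN1, W_sdiff Finset.inter_subset_left]
  have hDT : Disjoint T Dy := by
    rw [Finset.disjoint_left]
    intro z hz hz'
    exact (Finset.mem_sdiff.1 (Finset.mem_inter.1 hz').2).2 hz
  have e1 : cl D (T ∪ Dy) \ X = (cl D T \ X) ∪ (cl D Dy \ (cl D T ∪ X)) := by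
    rw [cl_union1]
    ext z
    simp only [Finset.mem_sdiff, Finset.mem_union]
    tauto
  have e2 : Disjoint (cl D T \ X) (cl D Dy \ (cl D T ∪ X)) := by
    rw [Finset.disjoint_left]
    intro z hz hz'
    exact (Finset.mem_sdiff.1 hz').2 (Finset.mem_union_left _ (Finset.mem_sdiff.1 hz).1)
  have h3 : dd D w X (T ∪ Dy) - dd D w X T = W w Ey - 2 * W w Dy := by
    unfold dd
    rw [e1, W_union e2, W_union hDT]
    ring
  rw [h3]
  unfold Fw
  rw [h2]
  linarith

/-- The number of arcs. -/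
noncomputable def nA (D : OGraph V) : ℕ := ∑ v, (N1 D v).card

theorem nA_lt [DecidableEq V] {D : OGraph V} {X Z : Finset V} {y z : V} (hy : y ∈ X)
    (hz : z ∈ Z) (hyz : D.arc y z) : nA (dl D X Z) < nA D := by
  unfold nA
  have hsub : ∀ v, N1 (dl D X Z) v ⊆ N1 D v := by
    intro v x hx
    rw [mem_N1] at hx ⊢
    exact hx.1
  refine Finset.sum_lt_sum (fun v _ => Finset.card_le_card (hsub v)) ⟨y, Finset.mem_univ _, ?_⟩
  refine Finset.card_lt_card (Finset.ssubset_iff_subset_ne.2 ⟨hsub y, fun he => ?_⟩)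
  have h1 : z ∈ N1 (dl D X Z) y := by
    rw [he]
    exact mem_N1.2 hyz
  exact (mem_N1.1 h1).2 ⟨hy, hz⟩

/-- Arc-minimal counterexample with fixed weight `w`. -/
structure AM (D : OGraph V) (w : V → ℝ) : Prop where
  pos : ∀ v, 0 < w v
  ce : ∀ v, 0 < Fw 1 D w v
  amin : ∀ D' : OGraph V, (∀ v, 0 < Fw 1 D' w v) → nA D ≤ nA D'

/-- The strict inequality (G). -/
theorem AM.strict {D : OGraph V} {w : V → ℝ} (h : AM D w) (X : Finset V)
    (hX : cl D X ≠ X) : cc D w (cl D X) < cc D w X := by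
  classical
  set L := Lx D X with hL
  have hL' : L = outS D X \ X := hL
  obtain ⟨T, hT, hmin⟩ := Finset.exists_min_image L.powerset (dd D w X)
    ⟨∅, Finset.empty_mem_powerset _⟩
  rw [Finset.mem_powerset] at hT
  have hmin' : ∀ S ⊆ L, dd D w X T ≤ dd D w X S := fun S hS => hmin S (Finset.mem_powerset.2 hS)
  have hall : ∀ v, 0 < Fw 1 (dl D X (L \ T)) w v := by
    intro v
    by_cases hv : v ∈ X
    · have h2 := del_row_in (D := D) (w := w) (fun v => (h.pos v).le) X T hv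
      have h3 := hmin' (T ∪ (N1 D v ∩ (L \ T)))
        (Finset.union_subset hT (Finset.inter_subset_right.trans Finset.sdiff_subset))
      have h4 := h.ce v
      linarith
    · exact (h.ce v).trans_le (del_row_out (fun v => (h.pos v).le) X _ hv)
  have hTL : T = L := by
    by_contra hne
    obtain ⟨z, hzL, hzT⟩ := Finset.exists_of_ssubset (Finset.ssubset_iff_subset_ne.2 ⟨hT, hne⟩)
    have hzL' : z ∈ outS D X \ X := hzL
    obtain ⟨y, hy, hyz⟩ := mem_outS.1 (Finset.mem_sdiff.1 hzL').1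
    have h3 := nA_lt (D := D) (Z := L \ T) hy (Finset.mem_sdiff.2 ⟨hzL, hzT⟩) hyz
    have h4 := h.amin _ hall
    omega
  have hLne : L.Nonempty := by
    rw [Finset.nonempty_iff_ne_empty]
    intro hLe
    apply hX
    refine Finset.Subset.antisymm ?_ (sub_cl1 D X)
    intro z hz
    rw [mem_cl] at hz
    rcases hz with hz | hz
    · exact hz
    · by_contra hzX
      have h1 : z ∈ L := by
        rw [hL']
        exact Finset.mem_sdiff.2 ⟨mem_outS.2 hz, hzX⟩
      rw [hLe] at h1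
      exact Finset.notMem_empty _ h1
  -- the empty set is not a minimiser
  have hstr : dd D w X L < dd D w X ∅ := by
    rcases lt_or_eq_of_le (hTL ▸ hmin' ∅ (Finset.empty_subset _)) with h1 | h1
    · exact h1
    exfalso
    have hmin2 : ∀ S ⊆ L, dd D w X ∅ ≤ dd D w X S := by
      intro S hS
      rw [← h1]
      have := hmin' S hS
      rwa [hTL] at this
    have hall2 : ∀ v, 0 < Fw 1 (dl D X (L \ ∅)) w v := by
      intro v
      by_cases hv : v ∈ X
      · have h2 := del_row_in (D := D) (w := w) (fun v => (h.pos v).le) X ∅ hv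
        have h3 := hmin2 (∅ ∪ (N1 D v ∩ (L \ ∅)))
          (Finset.union_subset (Finset.empty_subset _)
            (Finset.inter_subset_right.trans Finset.sdiff_subset))
        have h4 := h.ce v
        linarith
      · exact (h.ce v).trans_le (del_row_out (fun v => (h.pos v).le) X _ hv)
    obtain ⟨z, hz⟩ := hLne
    have hzL' : z ∈ outS D X \ X := hz
    obtain ⟨y, hy, hyz⟩ := mem_outS.1 (Finset.mem_sdiff.1 hzL').1
    have h3 := nA_lt (D := D) (Z := L \ ∅) hy (by
      rw [Finset.sdiff_empty]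
      exact hz) hyz
    have h4 := h.amin _ hall2
    omega
  have h0 : dd D w X ∅ = 0 := by
    have : cl D (∅ : Finset V) = ∅ := by
      rw [Finset.eq_empty_iff_forall_notMem]
      intro z hz
      rw [mem_cl] at hz
      simp at hz
    simp [dd, this, W]
  have e1 : cl D L \ X = cl D (cl D X) \ X := by
    ext z
    simp only [Finset.mem_sdiff, mem_cl1]
    constructor
    · rintro ⟨⟨a, ha, haz⟩, hzX⟩
      refine ⟨⟨a, ?_, haz⟩, hzX⟩
      rw [hL'] at ha
      obtain ⟨y, hy, hya⟩ := mem_outS.1 (Finset.mem_sdiff.1 ha).1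
      exact ⟨y, hy, Or.inr hya⟩
    · rintro ⟨⟨a, ⟨y, hy, hya⟩, haz⟩, hzX⟩
      refine ⟨?_, hzX⟩
      by_cases haX : a ∈ X
      · refine ⟨z, ?_, Or.inl rfl⟩
        rw [hL']
        refine Finset.mem_sdiff.2 ⟨?_, hzX⟩
        rcases haz with rfl | haz
        · exact absurd haX hzX
        · exact mem_outS.2 ⟨a, haX, haz⟩
      · refine ⟨a, ?_, haz⟩
        rw [hL']
        refine Finset.mem_sdiff.2 ⟨?_, haX⟩
        rcases hya with rfl | hya
        · exact absurd hy haX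
        · exact mem_outS.2 ⟨y, hy, hya⟩
  have e2 : L = cl D X \ X := by
    rw [hL']
    ext z
    simp only [Finset.mem_sdiff, mem_outS, mem_cl]
    tauto
  have h1 : W w (cl D (cl D X) \ X) = W w (cl D (cl D X)) - W w X :=
    W_sdiff ((sub_cl1 D X).trans (sub_cl1 D _))
  have h2 : W w L = W w (cl D X) - W w X := by
    rw [e2]
    exact W_sdiff (sub_cl1 D X)
  have h3 : dd D w X L = W w (cl D (cl D X)) - W w X - 2 * (W w (cl D X) - W w X) := by
    unfold dd
    rw [e1, h1, h2]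
  rw [h3, h0] at hstr
  unfold cc
  linarith

end Vale.Agent.P038.H924
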