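import Mathlib

/-!
# The key inequality (helper362's lemma; Lean text by helper857, real-valued copy)
-/

open Finset

namespace Vale.Agent.P038.H924

variable {V : Type*} [Fintype V] [DecidableEq V]

/-! ### Constrained minima of a submodular function -/

section Sub

/-- The minimum of `f` over the sets between `Y` and `K`. -/
noncomputable def mc (f : Finset V → ℝ) (K Y : Finset V) : ℝ :=
  if h : Y ⊆ K then (Finset.Icc Y K).inf' ⟨Y, Finset.mem_Icc.2 ⟨le_refl _, h⟩⟩ f else 0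

theorem mc_le (f : Finset V → ℝ) {K Y Z : Finset V} (h1 : Y ⊆ Z) (h2 : Z ⊆ K) :
    mc f K Y ≤ f Z := by
  unfold mc
  rw [dif_pos (h1.trans h2)]
  exact Finset.inf'_le _ (Finset.mem_Icc.2 ⟨h1, h2⟩)

theorem mc_exists (f : Finset V → ℝ) {K Y : Finset V} (h : Y ⊆ K) :
    ∃ Z, Y ⊆ Z ∧ Z ⊆ K ∧ mc f K Y = f Z := by
  unfold mc
  rw [dif_pos h]
  obtain ⟨Z, hZ, e⟩ := Finset.exists_mem_eq_inf' (s := Finset.Icc Y K)
    ⟨Y, Finset.mem_Icc.2 ⟨le_refl _, h⟩⟩ f
  rw [Finset.mem_Icc] at hZ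
  exact ⟨Z, hZ.1, hZ.2, e⟩

theorem mc_mono (f : Finset V → ℝ) {K Y Y' : Finset V} (h : Y ⊆ Y') (h' : Y' ⊆ K) :
    mc f K Y ≤ mc f K Y' := by
  obtain ⟨Z, h1, h2, e⟩ := mc_exists f h'
  rw [e]
  exact mc_le f (h.trans h1) h2

theorem mc_top (f : Finset V → ℝ) (K : Finset V) : mc f K K = f K := by
  obtain ⟨Z, h1, h2, e⟩ := mc_exists f (subset_refl K)
  rw [e, subset_antisymm h2 h1]

theorem mc_exch {f : Finset V → ℝ} (hf : ∀ S T, f (S ∩ T) + f (S ∪ T) ≤ f S + f T)
    {K' K X Y : Finset V} {b : V} (hK : K' ⊆ K) (hX : X ⊆ K') (hXY : X ⊆ Y) (hY : Y ⊆ K)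
    (hb : b ∈ K') :
    mc f K' X + mc f K (insert b Y) ≤ mc f K' (insert b X) + mc f K Y := by
  obtain ⟨Z', h1, h2, e'⟩ := mc_exists f (Finset.insert_subset hb hX)
  obtain ⟨Z, h3, h4, e⟩ := mc_exists f hY
  rw [e, e']
  refine le_trans (add_le_add ?_ ?_) (hf Z' Z)
  · exact mc_le f (Finset.subset_inter ((Finset.subset_insert b X).trans h1) (hXY.trans h3))
      (Finset.inter_subset_left.trans h2)
  · refine mc_le f ?_ (Finset.union_subset (h2.trans hK) h4)
    refine Finset.insert_subset (Finset.mem_union_left _ (h1 (Finset.mem_insert_self _ _))) ?_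
    exact h3.trans Finset.subset_union_right

end Sub

/-! ### The key inequality -/

section Key

variable (N : V → Finset V)

/-- Intersection of the rows of `P` over the closed in-neighbourhood of `a`. -/
def il (P : V → Finset V) (a : V) : Finset V := univ.filter fun x => ∀ s, a ∈ N s → x ∈ P s

theorem mem_il {P : V → Finset V} {a x : V} : x ∈ il N P a ↔ ∀ s, a ∈ N s → x ∈ P s := by
  simp [il]

theorem il_min {f : Finset V → ℝ} (hf : ∀ S T, f (S ∩ T) + f (S ∪ T) ≤ f S + f T)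
    {P Ph : V → Finset V} (hP : ∀ a, P a ⊆ Ph a)
    (hR : ∀ a S, P a ⊆ S → S ⊆ Ph a → f (P a) ≤ f S) {a : V} {Z : Finset V}
    (h1 : il N P a ⊆ Z) (h2 : Z ⊆ il N Ph a) : f (il N P a) ≤ f Z := by
  have key : ∀ t : Finset V, (∀ s ∈ t, a ∈ N s) →
      f (Z.filter fun x => ∀ s ∈ t, x ∈ P s) ≤ f Z := by
    intro t
    induction t using Finset.induction_on with
    | empty => intro _; simp
    | insert s t hs ih =>
      intro h
      have ih' := ih fun u hu => h u (Finset.mem_insert_of_mem hu)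
      refine le_trans ?_ ih'
      set W := Z.filter fun x => ∀ s ∈ t, x ∈ P s with hW
      have e : (Z.filter fun x => ∀ u ∈ insert s t, x ∈ P u) = W ∩ P s := by
        ext x
        simp only [hW, Finset.mem_filter, Finset.mem_inter, Finset.forall_mem_insert]
        tauto
      rw [e]
      have hWs : W ⊆ Ph s := fun x hx =>
        (mem_il N).1 (h2 (Finset.mem_filter.1 hx).1) s (h s (Finset.mem_insert_self _ _))
      have := hf W (P s)
      have h3 := hR s (W ∪ P s) Finset.subset_union_right (Finset.union_subset hWs (hP s))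
      linarith
  have := key (univ.filter fun s => a ∈ N s) (by simp)
  have e : (Z.filter fun x => ∀ s ∈ univ.filter (fun s => a ∈ N s), x ∈ P s) = il N P a := by
    ext x
    simp only [Finset.mem_filter, Finset.mem_univ, true_and, mem_il]
    exact ⟨fun h => h.2, fun h => ⟨h1 ((mem_il N).2 h), h⟩⟩
  rwa [e] at this

/-- The first `i` vertices in a fixed enumeration. -/
def pre (e : V ≃ Fin (Fintype.card V)) (i : ℕ) : Finset V := univ.filter fun v => (e v : ℕ) < i

theorem key {f : Finset V → ℝ} (hf : ∀ S T, f (S ∩ T) + f (S ∪ T) ≤ f S + f T)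
    {P Ph : V → Finset V} (hP : ∀ a, P a ⊆ Ph a)
    (hR : ∀ a S, P a ⊆ S → S ⊆ Ph a → f (P a) ≤ f S)
    (hC : ∀ b (T : Finset V), (∀ z ∈ T, b ∈ Ph z ∧ b ∉ P z) →
      T.card ≤ ((T.biUnion N).filter fun a' => ∀ s, a' ∈ N s → b ∈ Ph s).card) :
    ∑ a, (f (Ph a) - f (P a)) ≤ ∑ a, (f (il N Ph a) - f (il N P a)) := by
  classical
  let e := Fintype.equivFin V
  let n := Fintype.card V
  have ilm : ∀ a, il N P a ⊆ il N Ph a := fun a x hx =>
    (mem_il N).2 fun s hs => hP s ((mem_il N).1 hx s hs)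
  -- telescoping
  have tele : ∀ (Q Qh : Finset V), Q ⊆ Qh → (∀ S, Q ⊆ S → S ⊆ Qh → f Q ≤ f S) →
      f Qh - f Q = ∑ i ∈ Finset.range n, (mc f Qh (Q ∪ (Qh ∩ pre e (i + 1))) -
        mc f Qh (Q ∪ (Qh ∩ pre e i))) := by
    intro Q Qh hQ hQR
    rw [Finset.sum_range_sub (fun i => mc f Qh (Q ∪ (Qh ∩ pre e i)))]
    have e0 : pre e 0 = ∅ := by simp [pre]
    have e1 : pre e n = univ := by
      ext v
      simp only [pre, Finset.mem_filter, Finset.mem_univ, true_and, iff_true]
      exact (e v).2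
    rw [e0, e1, Finset.inter_empty, Finset.union_empty, Finset.inter_univ,
      Finset.union_eq_right.2 hQ, mc_top]
    obtain ⟨Z, h1, h2, e2⟩ := mc_exists f hQ
    have h3 := mc_le f (subset_refl Q) hQ
    have h4 := hQR Z h1 h2
    rw [← e2] at h4
    linarith
  have L : ∀ a, f (Ph a) - f (P a) = _ := fun a => tele (P a) (Ph a) (hP a) (hR a)
  have R : ∀ a, f (il N Ph a) - f (il N P a) = _ := fun a =>
    tele (il N P a) (il N Ph a) (ilm a) (fun S h1 h2 => il_min N hf hP hR h1 h2)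
  rw [Finset.sum_congr rfl fun a _ => L a, Finset.sum_congr rfl fun a _ => R a,
    Finset.sum_comm, Finset.sum_comm (s := univ) (t := Finset.range n)]
  refine Finset.sum_le_sum fun i hi => ?_
  have hi' : i < Fintype.card V := Finset.mem_range.1 hi
  set b : V := e.symm ⟨i, hi'⟩ with hb
  have hpre : pre e (i + 1) = insert b (pre e i) := by
    ext v
    simp only [pre, Finset.mem_filter, Finset.mem_univ, true_and, Finset.mem_insert, hb]
    rw [Equiv.eq_symm_apply, Fin.ext_iff]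
    simp only
    omega
  set G : Finset V := univ.filter fun z => b ∈ Ph z ∧ b ∉ P z with hG
  -- Hall
  have hall : ∃ φ : {z // z ∈ G} → V, Function.Injective φ ∧
      ∀ z, φ z ∈ (N z.1).filter fun a' => ∀ s, a' ∈ N s → b ∈ Ph s := by
    refine (Finset.all_card_le_biUnion_card_iff_exists_injective _).1 fun T => ?_
    have := hC b (T.map ⟨Subtype.val, Subtype.val_injective⟩) (by
      intro z hz
      rw [Finset.mem_map] at hz
      obtain ⟨u, _, rfl⟩ := hz
      exact (Finset.mem_filter.1 u.2).2)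
    rw [Finset.card_map] at this
    refine this.trans (Finset.card_le_card ?_)
    intro x hx
    rw [Finset.mem_filter, Finset.mem_biUnion] at hx
    obtain ⟨⟨u, hu, hx1⟩, hx2⟩ := hx
    rw [Finset.mem_map] at hu
    obtain ⟨u', hu', rfl⟩ := hu
    rw [Finset.mem_biUnion]
    exact ⟨u', hu', Finset.mem_filter.2 ⟨hx1, hx2⟩⟩
  obtain ⟨φ, hφ, hφ2⟩ := hall
  have hm : ∀ a, 0 ≤ mc f (il N Ph a) (il N P a ∪ (il N Ph a ∩ pre e (i + 1))) -
      mc f (il N Ph a) (il N P a ∪ (il N Ph a ∩ pre e i)) := by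
    intro a
    rw [sub_nonneg]
    refine mc_mono f ?_ (Finset.union_subset (ilm a) Finset.inter_subset_left)
    rw [hpre]
    exact Finset.union_subset_union_right (Finset.inter_subset_inter_left
      (Finset.subset_insert _ _))
  have h0 : ∀ a, a ∉ G → mc f (Ph a) (P a ∪ (Ph a ∩ pre e (i + 1))) -
      mc f (Ph a) (P a ∪ (Ph a ∩ pre e i)) = 0 := by
    intro a ha
    have : P a ∪ (Ph a ∩ pre e (i + 1)) = P a ∪ (Ph a ∩ pre e i) := by
      rw [hpre]
      ext x
      simp only [Finset.mem_union, Finset.mem_inter, Finset.mem_insert]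
      constructor
      · rintro (h | ⟨h1, rfl | h2⟩)
        · exact Or.inl h
        · left
          by_contra hc
          exact ha (Finset.mem_filter.2 ⟨Finset.mem_univ _, h1, hc⟩)
        · exact Or.inr ⟨h1, h2⟩
      · rintro (h | ⟨h1, h2⟩)
        · exact Or.inl h
        · exact Or.inr ⟨h1, Or.inr h2⟩
    rw [this, sub_self]
  have hins : ∀ Q Qh : Finset V, b ∈ Qh →
      Q ∪ (Qh ∩ pre e (i + 1)) = insert b (Q ∪ (Qh ∩ pre e i)) := by
    intro Q Qh h
    rw [hpre]
    ext x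
    simp only [Finset.mem_union, Finset.mem_inter, Finset.mem_insert]
    constructor
    · rintro (h | ⟨h1, rfl | h2⟩)
      · exact Or.inr (Or.inl h)
      · exact Or.inl rfl
      · exact Or.inr (Or.inr ⟨h1, h2⟩)
    · rintro (rfl | h | ⟨h1, h2⟩)
      · exact Or.inr ⟨h, Or.inl rfl⟩
      · exact Or.inl h
      · exact Or.inr ⟨h1, Or.inr h2⟩
  calc ∑ a, (mc f (Ph a) (P a ∪ (Ph a ∩ pre e (i + 1))) - mc f (Ph a) (P a ∪ (Ph a ∩ pre e i)))
      = ∑ a ∈ G, (mc f (Ph a) (P a ∪ (Ph a ∩ pre e (i + 1))) -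
        mc f (Ph a) (P a ∪ (Ph a ∩ pre e i))) := by
        symm
        exact Finset.sum_subset (Finset.subset_univ _) fun a _ ha => h0 a ha
    _ = ∑ z : {z // z ∈ G}, (mc f (Ph z.1) (P z.1 ∪ (Ph z.1 ∩ pre e (i + 1))) -
        mc f (Ph z.1) (P z.1 ∪ (Ph z.1 ∩ pre e i))) := by
        rw [← Finset.sum_coe_sort G]
    _ ≤ ∑ z : {z // z ∈ G}, (mc f (il N Ph (φ z)) (il N P (φ z) ∪ (il N Ph (φ z) ∩ pre e (i + 1))) -
        mc f (il N Ph (φ z)) (il N P (φ z) ∪ (il N Ph (φ z) ∩ pre e i))) := by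
        refine Finset.sum_le_sum fun z _ => ?_
        have hz := (Finset.mem_filter.1 z.2).2
        have hφz := Finset.mem_filter.1 (hφ2 z)
        have hbS : b ∈ il N Ph (φ z) := (mem_il N).2 hφz.2
        rw [hins _ _ hbS, hins _ _ hz.1]
        have s1 : il N Ph (φ z) ⊆ Ph z.1 := fun x hx => (mem_il N).1 hx z.1 hφz.1
        have s2 : il N P (φ z) ⊆ P z.1 := fun x hx => (mem_il N).1 hx z.1 hφz.1
        have := mc_exch hf (K' := il N Ph (φ z)) (K := Ph z.1)
          (X := il N P (φ z) ∪ (il N Ph (φ z) ∩ pre e i))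
          (Y := P z.1 ∪ (Ph z.1 ∩ pre e i)) (b := b) s1
          (Finset.union_subset (ilm _) Finset.inter_subset_left)
          (Finset.union_subset_union s2 (Finset.inter_subset_inter_right s1))
          (Finset.union_subset (hP _) Finset.inter_subset_left) hbS
        linarith
    _ = ∑ a ∈ (univ : Finset {z // z ∈ G}).map ⟨φ, hφ⟩,
        (mc f (il N Ph a) (il N P a ∪ (il N Ph a ∩ pre e (i + 1))) -
        mc f (il N Ph a) (il N P a ∪ (il N Ph a ∩ pre e i))) := by
        rw [Finset.sum_map]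
        rfl
    _ ≤ ∑ a, (mc f (il N Ph a) (il N P a ∪ (il N Ph a ∩ pre e (i + 1))) -
        mc f (il N Ph a) (il N P a ∪ (il N Ph a ∩ pre e i))) :=
        Finset.sum_le_sum_of_subset_of_nonneg (Finset.subset_univ _) fun a _ _ => hm a

end Key

end Vale.Agent.P038.H924
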