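import Vale.Agent.P038.H924.Key
import Vale.Agent.P038.H924.GS

/-!
# P038 (H924): Seymour's second neighbourhood conjecture

Comparison of the two minimum cuts (problem II: `F2`, eroded pair), and the final contradiction.
-/

namespace Vale.Agent.P038.H924

open Finset Vale.Agent.P038.H139

variable {V : Type*} [Fintype V]

/-- The constant weight. -/
def one (V : Type*) : V → ℝ := fun _ => 1

theorem one_pos' (v : V) : 0 < one V v := one_pos

theorem W_one (S : Finset V) : W (one V) S = (S.card : ℝ) := by
  unfold W one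
  simp

theorem MM_one (R : V → Finset V) : MM (one V) R = ∑ a, ((R a).card : ℝ) := by
  unfold MM
  refine Finset.sum_congr rfl fun a _ => ?_
  rw [W_one]
  unfold one
  ring

theorem cost_one (D : OGraph V) (P Q : V → Finset V) :
    cost D (one V) P Q = ∑ a, cc D (one V) (P a) + ∑ b, cc D (one V) (Q b) := by
  unfold cost one
  simp

/-- Two relations that never overlap (transposed) off the diagonal. -/
theorem comp_mass {w : V → ℝ} (hw : ∀ v, 0 ≤ w v) (R C : V → Finset V)
    (hR : ∀ a, a ∈ R a)
    (h : ∀ a x, a ≠ x → x ∈ R a → a ∉ C x) : MM w R + MM w C ≤ KK w := by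
  have h1 : MM w R ≤ MM w (hat C) := by
    unfold MM
    refine Finset.sum_le_sum fun a _ => mul_le_mul_of_nonneg_left (W_mono hw ?_) (hw a)
    intro x hx
    rw [mem_hat]
    by_cases hax : a = x
    · exact Or.inl hax.symm
    · exact Or.inr (h a x hax hx)
  have h2 : MM w C ≤ MM w (fun x => hat (hat C) x) := by
    unfold MM
    refine Finset.sum_le_sum fun a _ => mul_le_mul_of_nonneg_left (W_mono hw ?_) (hw a)
    intro x hx
    rw [mem_hat]
    by_cases hax : x = a
    · exact Or.inl hax
    · refine Or.inr fun h3 => ?_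
      rcases mem_hat.1 h3 with h4 | h4
      · exact hax h4.symm
      · exact h4 hx
  have h3 : MM w (hat C) + MM w (fun x => hat (hat C) x) = KK w := by
    refine dual_mass w _ _ (fun a => self_hat C a) (fun a => self_hat _ a) fun a x hax => ?_
    constructor
    · intro hx h4
      rcases mem_hat.1 h4 with h5 | h5
      · exact hax h5
      · exact h5 hx
    · intro h4
      by_contra hx
      exact h4 (mem_hat.2 (Or.inr hx))
  linarith

open Classical in
/-- The closed out-neighbourhood of a vertex. -/
noncomputable def Nn (D : OGraph V) (s : V) : Finset V := univ.filter fun a => nb D s a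

theorem mem_Nn {D : OGraph V} {s a : V} : a ∈ Nn D s ↔ nb D s a := by
  classical
  simp [Nn]

theorem il_eq_cap [DecidableEq V] (D : OGraph V) (P : V → Finset V) (a : V) :
    il (Nn D) P a = cap D P a := by
  ext x
  rw [mem_il, mem_cap]
  simp only [mem_Nn]

/-- The key inequality for an optimal pair. -/
theorem O2.exc {D : OGraph V} {P Q : V → Finset V} (h : O2 D (one V) P Q) :
    ∑ a, (cc D (one V) (hat Q a) - cc D (one V) (P a)) ≤
      ∑ a, (cc D (one V) (cap D (hat Q) a) - cc D (one V) (cap D P a)) := by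
  classical
  have hpos : ∀ v, 0 < one V v := one_pos'
  have hk := key (Nn D) (f := cc D (one V)) (P := P) (Ph := hat Q)
    (fun S T => by
      have := cc_submod (D := D) (w := one V) (fun v => (hpos v).le) S T
      linarith)
    h.feas.sub_hat
    (fun a S h1 h2 => h.row hpos a S h1 h2)
    (by
      intro b T hT
      have hb : ∀ S, Q b ⊆ S → S ⊆ hat P b → cc D (one V) (Q b) ≤ cc D (one V) S :=
        fun S h1 h2 => h.symm.row hpos b S h1 h2
      have hT' : T ⊆ hat P b \ Q b := by
        intro z hz
        obtain ⟨h1, h2⟩ := hT z hz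
        rw [Finset.mem_sdiff, mem_hat]
        refine ⟨Or.inr h2, fun h3 => ?_⟩
        rcases mem_hat.1 h1 with h4 | h4
        · subst h4
          exact h2 (h.feas.hP b b (Or.inl rfl))
        · exact h4 h3
      have h1 := hall_of (D := D) (w := one V) (fun v => (hpos v).le)
        (h.symm.feas.sub_hat b) hb T hT'
      rw [W_one, W_one] at h1
      have h2 : T.card ≤ ((cl D (hat P b) \ cl D (Q b)).filter fun b => ∃ a ∈ T, nb D a b).card := by
        exact_mod_cast h1
      refine h2.trans (Finset.card_le_card ?_)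
      intro a' ha'
      rw [Finset.mem_filter, Finset.mem_sdiff] at ha'
      obtain ⟨⟨h3, h4⟩, z, hz, hza⟩ := ha'
      rw [Finset.mem_filter, Finset.mem_biUnion]
      refine ⟨⟨z, hz, mem_Nn.2 hza⟩, fun s hs => ?_⟩
      rw [mem_hat]
      right
      intro hsQ
      exact h4 (mem_cl1.2 ⟨s, hsQ, mem_Nn.1 hs⟩))
  simp only [il_eq_cap] at hk
  exact hk

/-- The eroded pair is not more expensive. -/
theorem O2.main {D : OGraph V} {P Q : V → Finset V} (h : O2 D (one V) P Q) :
    cost D (one V) (cap D P) (cap D Q) ≤ cost D (one V) P Q := by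
  have hpos : ∀ v, 0 < one V v := one_pos'
  have hQQ : hat (hat Q) = Q := hat_hat fun x => h.feas.hQ x x (Or.inl rfl)
  have hPP : hat (hat P) = P := hat_hat fun x => h.feas.hP x x (Or.inl rfl)
  have m2 : MM (one V) (cap D (hat Q)) + MM (one V) (clF D Q) = KK (one V) := by
    have := h.feas.hat_left.mass_cap (one V)
    rwa [hQQ] at this
  have m3 := h.feas.symm.mass_cap (one V)
  -- `cap Q` against `hat Q`
  have m5 := h.feas.mass_hat (one V)
  have e := h.exc
  have e' : MM (one V) (clF D (hat Q)) - MM (one V) (hat Q) -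
      (MM (one V) (clF D P) - MM (one V) P) ≤
      MM (one V) (clF D (cap D (hat Q))) - MM (one V) (cap D (hat Q)) -
      (MM (one V) (clF D (cap D P)) - MM (one V) (cap D P)) := by
    have conv : ∀ R : V → Finset V, MM (one V) (clF D R) - MM (one V) R =
        ∑ a, cc D (one V) (R a) := by
      intro R
      unfold MM clF cc one
      rw [← Finset.sum_sub_distrib]
      exact Finset.sum_congr rfl fun a _ => by ring
    rw [conv, conv, conv, conv, ← Finset.sum_sub_distrib, ← Finset.sum_sub_distrib]
    exact e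
  have m6 : MM (one V) (clF D (cap D (hat Q))) + MM (one V) (clF D (cap D Q)) ≤ KK (one V) := by
    refine comp_mass (fun v => (hpos v).le) _ _ (fun a => ?_) fun a x hax hx => ?_
    · exact sub_cl1 D _ (h.feas.hat_left.self_cap a)
    · exact h.feas.hat_left.cap_comp a x hax hx
  rw [cost_eq, cost_eq]
  linarith

/-- Existence of an optimal pair. -/
theorem exists_O2 (D : OGraph V) (w : V → ℝ) : ∃ P Q, O2 D w P Q := by
  classical
  have hne : ∃ z : (V → Finset V) × (V → Finset V), F2 D z.1 z.2 := by
    refine ⟨(Nn D, Nn D), fun a b hab => mem_Nn.2 hab, fun a b hab => mem_Nn.2 hab, ?_⟩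
    intro a b hab h1 h2
    rcases mem_Nn.1 h1 with h1 | h1
    · exact hab h1
    · rcases mem_Nn.1 h2 with h2 | h2
      · exact hab h2.symm
      · exact D.asymm _ _ h1 h2
  obtain ⟨z, hz, hmin⟩ := Set.exists_min_image
    {z : (V → Finset V) × (V → Finset V) | F2 D z.1 z.2} (fun z => cost D w z.1 z.2)
    (Set.toFinite _) hne
  exact ⟨z.1, z.2, hz, fun P' Q' h' => hmin (P', Q') h'⟩

/-- There is no arc-minimal counterexample. -/
theorem AM.false [Nonempty V] {D : OGraph V} (h : AM D (one V)) : False := by
  classical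
  obtain ⟨P, Q, hO⟩ := exists_O2 D (one V)
  have h1 := hO.main
  have h2 := hO.opt _ _ hO.feas.F2_cl_cap
  rw [cost_one] at h1
  rw [cost_one D (clF D (cap D P)) (clF D (cap D Q))] at h2
  have hle : ∀ X : Finset V, cc D (one V) (cl D X) ≤ cc D (one V) X := by
    intro X
    by_cases hX : cl D X = X
    · rw [hX]
    · exact (h.strict X hX).le
  have h3 : ∑ b, cc D (one V) (clF D (cap D Q) b) ≤ ∑ b, cc D (one V) (cap D Q b) :=
    Finset.sum_le_sum fun b _ => hle _
  -- some set `cap P a` is not closed
  have hex : ∃ a, cl D (cap D P a) ≠ cap D P a := by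
    by_contra hcon
    push Not at hcon
    obtain ⟨S, hS, hSmin⟩ := Set.exists_min_image
      {S : Finset V | S.Nonempty ∧ cl D S ⊆ S} Finset.card (Set.toFinite _)
      ⟨univ, Finset.univ_nonempty, Finset.subset_univ _⟩
    obtain ⟨⟨a, ha⟩, hSc⟩ := hS
    -- an in-neighbour of `a` in `S`
    have hc : ∃ c ∈ S, D.arc c a := by
      by_contra hno
      push Not at hno
      have hout : ∃ b, D.arc a b := by
        by_contra hb
        push Not at hb
        have h4 := h.ce a
        have h5 : N1 D a = ∅ := by
          rw [Finset.eq_empty_iff_forall_notMem]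
          intro x hx
          exact hb x (mem_N1.1 hx)
        unfold Fw at h4
        rw [h5] at h4
        have h6 := W_nonneg (fun v => (one_pos' (V := V) v).le) (N2 D a)
        have h7 : W (one V) (∅ : Finset V) = 0 := by simp [W]
        rw [h7] at h4
        linarith
      obtain ⟨b, hab⟩ := hout
      have h5 := hSmin (S.erase a) ⟨⟨b, Finset.mem_erase.2 ⟨?_, hSc (mem_cl1.2 ⟨a, ha, Or.inr hab⟩)⟩⟩,
        ?_⟩
      · have h6 := Finset.card_erase_lt_of_mem ha
        omega
      · rintro rfl
        exact D.loopless _ hab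
      · intro z hz
        obtain ⟨y, hy, hyz⟩ := mem_cl1.1 hz
        rw [Finset.mem_erase] at hy ⊢
        refine ⟨?_, hSc (mem_cl1.2 ⟨y, hy.2, hyz⟩)⟩
        rintro rfl
        rcases hyz with h7 | h7
        · exact hy.1 h7
        · exact hno y hy.2 h7
    obtain ⟨c, hcS, hca⟩ := hc
    have haX : a ∈ cap D P a := hO.feas.self_cap a
    have h5 := hSmin (S ∩ cap D P a) ⟨⟨a, Finset.mem_inter.2 ⟨ha, haX⟩⟩, ?_⟩
    · have h6 : S ∩ cap D P a = S := Finset.eq_of_subset_of_card_le Finset.inter_subset_left h5
      have h7 : c ∈ cap D P a := by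
        rw [← h6] at hcS
        exact (Finset.mem_inter.1 hcS).2
      have hne : a ≠ c := by
        rintro rfl
        exact D.loopless _ hca
      exact hO.feas.cap_comp a c hne (sub_cl1 D _ h7)
        (mem_cl1.2 ⟨c, hO.feas.symm.self_cap c, Or.inr hca⟩)
    · refine Finset.subset_inter ((cl_mono1 Finset.inter_subset_left).trans hSc) ?_
      exact (cl_mono1 Finset.inter_subset_right).trans (hcon a).le
  obtain ⟨a, ha⟩ := hex
  have h4 : ∑ b, cc D (one V) (clF D (cap D P) b) < ∑ b, cc D (one V) (cap D P b) :=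
    Finset.sum_lt_sum (fun b _ => hle _) ⟨a, Finset.mem_univ _, h.strict _ ha⟩
  linarith

/-- **Seymour's second neighbourhood conjecture.** -/
theorem seymour [Nonempty V] (D : OGraph V) : ∃ v, (N1 D v).card ≤ (N2 D v).card := by
  classical
  by_contra hcon
  push Not at hcon
  have hce : ∀ v, 0 < Fw 1 D (one V) v := by
    intro v
    have h1 := hcon v
    unfold Fw
    rw [W_one, W_one]
    have h2 : ((N2 D v).card : ℝ) < ((N1 D v).card : ℝ) := by exact_mod_cast h1
    linarith
  have hex : ∃ n, ∃ D : OGraph V, (∀ v, 0 < Fw 1 D (one V) v) ∧ nA D = n := ⟨_, D, hce, rfl⟩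
  obtain ⟨D0, hD0, hn⟩ := Nat.find_spec hex
  refine AM.false (D := D0) ⟨one_pos', hD0, fun D' h' => ?_⟩
  rw [hn]
  exact Nat.find_min' hex ⟨D', h', rfl⟩

end Vale.Agent.P038.H924

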